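import Vale.Agent.P181.H530.Zero
import Vale.Agent.P181.PL.Basic

set_option autoImplicit false

/-!
# P181, DX + FD: every partition with a short second row

The union of the theorem for `P w ≤ b ^ 2` and of the theorem for many cells in the first `b`
columns: near the diagonal, `b ≥ a + polylog`, the inequality holds for every `λ` with `λ_2 ≤ b`.
-/

namespace Vale.Agent.P181.DX.H556

open Vale.Agent.P181.T4 (ex)
open Vale.Agent.P181.H280 (plethMult)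
open Vale.Agent.P181.PL

/-- `DX.X924.UniX`, word for word. -/
def UniX : Prop := ∃ (C : ℝ) (c : ℕ), 1 ≤ C ∧ ∀ a b : ℕ, a ≤ b →
  ∀ (n : ℕ) (lam : Fin n → ℕ),
  (dn lam 1 ≤ b ∨ (dn lam 1 ≤ 2 * a ∧ (dn lam 1 < 2 * a ∨ a + 2 ≤ b)) ∨
    a + dn lam 2 ≤ b + 1 ∨
    (C * (1 + Real.log a) ^ c * (dn lam 1 : ℝ) ≤ (b : ℝ) ^ 2 ∧
      C * (1 + Real.log a) ^ c * (dn lam 1 : ℝ) ≤ (dn lam 2 : ℝ) ^ 2 ∧
      C * (1 + Real.log a) ^ c * (dn lam 1 : ℝ) ≤ ((dn lam 1 : ℝ) - a - ex lam 2) ^ 2)) →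
  plethMult a b n lam ≤ plethMult b a n lam

/-- `UniX` without the last condition. -/
def UniY : Prop := ∃ (C : ℝ) (c : ℕ), 1 ≤ C ∧ ∀ a b : ℕ, a ≤ b →
  ∀ (n : ℕ) (lam : Fin n → ℕ),
  (dn lam 1 ≤ b ∨ (dn lam 1 ≤ 2 * a ∧ (dn lam 1 < 2 * a ∨ a + 2 ≤ b)) ∨
    a + dn lam 2 ≤ b + 1 ∨
    (C * (1 + Real.log a) ^ c * (dn lam 1 : ℝ) ≤ (b : ℝ) ^ 2 ∧
      C * (1 + Real.log a) ^ c * (dn lam 1 : ℝ) ≤ (dn lam 2 : ℝ) ^ 2)) →
  plethMult a b n lam ≤ plethMult b a n lam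

/-- `FD.FatLog`, word for word. -/
def FatLog : Prop := ∃ (C : ℝ) (c : ℕ), 0 < C ∧ ∀ (a b n : ℕ) (lam : Fin n → ℕ), a ≤ b →
  C * (1 + Real.log a) ^ c * (b : ℝ) ^ 2 ≤ ((b : ℝ) - a) * ∑ i, ((min b (lam i) : ℕ) : ℝ) →
  plethMult a b n lam ≤ plethMult b a n lam

/-- **Every partition with a short second row** (`λ_2 = ex lam 1`, `P = C (1 + log a) ^ c`). -/
def SecY : Prop := ∃ (C : ℝ) (c : ℕ), 1 ≤ C ∧ ∀ a b : ℕ, a ≤ b →
  ∀ (n : ℕ) (lam : Fin n → ℕ),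
  C * (1 + Real.log a) ^ c * max (b : ℝ) (ex lam 1) ≤ b * ((b : ℝ) - a) →
  (ex lam 1 ≤ b ∨ C * (1 + Real.log a) ^ c * (ex lam 1 : ℝ) ≤ (dn lam 2 : ℝ) ^ 2 ∨
    a + dn lam 2 ≤ b + 1) →
  plethMult a b n lam ≤ plethMult b a n lam

/-- `SecY` with the condition of `UniX`. -/
def SecX : Prop := ∃ (C : ℝ) (c : ℕ), 1 ≤ C ∧ ∀ a b : ℕ, a ≤ b →
  ∀ (n : ℕ) (lam : Fin n → ℕ),
  C * (1 + Real.log a) ^ c * max (b : ℝ) (ex lam 1) ≤ b * ((b : ℝ) - a) →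
  (ex lam 1 ≤ b ∨ C * (1 + Real.log a) ^ c * (ex lam 1 : ℝ) ≤ (dn lam 2 : ℝ) ^ 2 ∨
    a + dn lam 2 ≤ b + 1) →
  (dn lam 1 ≤ 2 * a ∨
    C * (1 + Real.log a) ^ c * (dn lam 1 : ℝ) ≤ ((dn lam 1 : ℝ) - a - ex lam 2) ^ 2) →
  plethMult a b n lam ≤ plethMult b a n lam

/-- The cells in the first `b` columns. -/
lemma sum_min {b n : ℕ} {lam : Fin n → ℕ} (hanti : Antitone lam) {M : ℝ} (hM0 : 0 < M)
    (hM : M = max (b : ℝ) (ex lam 1)) :
    (dn lam 1 : ℝ) * b / M ≤ ∑ i, ((min b (lam i) : ℕ) : ℝ) := by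
  have h1 : (dn lam 1 : ℝ) = ∑ i : Fin n, (((if 1 ≤ (i : ℕ) then lam i else 0 : ℕ)) : ℝ) := by
    unfold dn
    push_cast
    rfl
  rw [h1, Finset.sum_mul, Finset.sum_div]
  apply Finset.sum_le_sum
  intro i _
  have hb0 : (0 : ℝ) ≤ b := Nat.cast_nonneg _
  have hbM : (b : ℝ) ≤ M := by rw [hM]; exact le_max_left _ _
  by_cases hi : 1 ≤ (i : ℕ)
  · rw [if_pos hi]
    have h2 : lam i ≤ ex lam 1 := by
      rw [← exfin lam i]
      exact exanti hanti hi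
    have h3 : (lam i : ℝ) ≤ M := by
      rw [hM]
      exact le_max_of_le_right (by exact_mod_cast h2)
    have hl0 : (0 : ℝ) ≤ lam i := Nat.cast_nonneg _
    rw [div_le_iff₀ hM0, Nat.cast_min]
    rcases le_total (b : ℝ) (lam i) with h4 | h4
    · rw [min_eq_left h4]
      calc (lam i : ℝ) * b ≤ M * b := mul_le_mul_of_nonneg_right h3 hb0
        _ = b * M := mul_comm _ _
    · rw [min_eq_right h4]
      exact mul_le_mul_of_nonneg_left hbM hl0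
  · rw [if_neg hi]
    simp

/-- The numbers: what is needed from `UniX` or from `FatLog`. -/
theorem core {a b n : ℕ} {lam : Fin n → ℕ} {T T' P : ℝ} (hT : 1 ≤ T) (hT' : 0 < T')
    (hP1 : 4 * T ^ 2 ≤ P) (hP2 : T * T' ≤ P) (hP3 : 4 * T ≤ P) (hab : a ≤ b)
    (hanti : Antitone lam)
    (h1 : P * max (b : ℝ) (ex lam 1) ≤ b * ((b : ℝ) - a))
    (h2 : ex lam 1 ≤ b ∨ P * (ex lam 1 : ℝ) ≤ (dn lam 2 : ℝ) ^ 2 ∨ a + dn lam 2 ≤ b + 1)
    (hw : ¬ dn lam 1 ≤ b) (hw2 : ¬ dn lam 1 ≤ 2 * a) (hD : ¬ a + dn lam 2 ≤ b + 1) :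
    (T * (dn lam 1 : ℝ) ≤ (b : ℝ) ^ 2 ∧ T * (dn lam 1 : ℝ) ≤ (dn lam 2 : ℝ) ^ 2) ∨
      T' * (b : ℝ) ^ 2 ≤ ((b : ℝ) - a) * ∑ i, ((min b (lam i) : ℕ) : ℝ) := by
  have hsucc : dn lam 1 = ex lam 1 + dn lam 2 := dn_succ lam 1
  have hsR : (dn lam 1 : ℝ) = ex lam 1 + dn lam 2 := by exact_mod_cast hsucc
  have hP0 : 0 < P := by nlinarith
  have hl0 : (0 : ℝ) ≤ (ex lam 1 : ℝ) := Nat.cast_nonneg _
  have hD0 : (0 : ℝ) ≤ (dn lam 2 : ℝ) := Nat.cast_nonneg _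
  have ha0 : (0 : ℝ) ≤ (a : ℝ) := Nat.cast_nonneg _
  have hb0 : (0 : ℝ) ≤ (b : ℝ) := Nat.cast_nonneg _
  -- b is positive
  have hb1 : 0 < b := by
    rcases Nat.eq_zero_or_pos b with h | h
    · exfalso
      have h3 : (b : ℝ) = 0 := by exact_mod_cast h
      have h4 : P * (ex lam 1 : ℝ) ≤ 0 := by
        calc P * (ex lam 1 : ℝ) ≤ P * max (b : ℝ) (ex lam 1) :=
              mul_le_mul_of_nonneg_left (le_max_right _ _) hP0.le
          _ ≤ b * ((b : ℝ) - a) := h1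
          _ = 0 := by rw [h3, zero_mul]
      have h5 : (ex lam 1 : ℝ) ≤ 0 := by
        by_contra hcon
        rw [not_le] at hcon
        have := mul_pos hP0 hcon
        linarith
      have h6 : ex lam 1 = 0 := by
        have : ex lam 1 ≤ 0 := by exact_mod_cast h5
        omega
      have h7 : dn lam 1 = 0 := by
        unfold dn
        apply Finset.sum_eq_zero
        intro i _
        by_cases hi : 1 ≤ (i : ℕ)
        · rw [if_pos hi]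
          have h8 := exanti hanti hi
          rw [exfin lam i, h6] at h8
          omega
        · rw [if_neg hi]
      omega
    · exact h
  have hbR : (0 : ℝ) < b := by exact_mod_cast hb1
  have hba : P ≤ (b : ℝ) - a := by
    have h3 : P * (b : ℝ) ≤ b * ((b : ℝ) - a) :=
      (mul_le_mul_of_nonneg_left (le_max_left _ _) hP0.le).trans h1
    have h4 : (b : ℝ) * P ≤ b * ((b : ℝ) - a) := by linarith
    exact le_of_mul_le_mul_left h4 hbR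
  have hDR : (b : ℝ) + 1 < a + dn lam 2 := by exact_mod_cast not_le.1 hD
  have hDP : P < (dn lam 2 : ℝ) := by linarith
  rcases le_or_gt (T * (dn lam 1 : ℝ)) ((b : ℝ) ^ 2) with h3 | h3
  · left
    refine ⟨h3, ?_⟩
    rcases h2 with h2 | h2 | h2
    · -- the second row is short
      by_contra hcon
      rw [not_le] at hcon
      have h2R : (ex lam 1 : ℝ) ≤ b := by exact_mod_cast h2
      have hwaR : 2 * (a : ℝ) < dn lam 1 := by exact_mod_cast not_le.1 hw2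
      have h4 : (dn lam 1 : ℝ) < a + 2 * dn lam 2 := by linarith
      have h5 : (dn lam 1 : ℝ) < 4 * dn lam 2 := by linarith
      have h6 : (dn lam 2 : ℝ) ^ 2 < T * (4 * dn lam 2) :=
        hcon.trans_le (mul_le_mul_of_nonneg_left h5.le (by linarith))
      nlinarith
    · have h4 : 2 * (T * (ex lam 1 : ℝ)) ≤ (dn lam 2 : ℝ) ^ 2 := by
        calc 2 * (T * (ex lam 1 : ℝ)) = (2 * T) * ex lam 1 := by ring
          _ ≤ P * ex lam 1 := mul_le_mul_of_nonneg_right (by linarith) hl0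
          _ ≤ _ := h2
      have h5 : 2 * (T * (dn lam 2 : ℝ)) ≤ (dn lam 2 : ℝ) ^ 2 := by
        have h6 : 2 * T ≤ (dn lam 2 : ℝ) := by linarith
        nlinarith
      rw [hsR]
      linarith
    · exact absurd h2 hD
  · right
    obtain ⟨M, hM⟩ : ∃ M : ℝ, M = max (b : ℝ) (ex lam 1) := ⟨_, rfl⟩
    have hM0 : 0 < M := by rw [hM]; exact lt_max_of_lt_left hbR
    have h4 := sum_min hanti hM0 hM
    rw [← hM] at h1
    have hba0 : 0 ≤ (b : ℝ) - a := by linarith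
    have hwp : (0 : ℝ) ≤ (dn lam 1 : ℝ) := Nat.cast_nonneg _
    have h5 : P * (dn lam 1 : ℝ) ≤ ((b : ℝ) - a) * ((dn lam 1 : ℝ) * b / M) := by
      have h6 : ((b : ℝ) - a) * ((dn lam 1 : ℝ) * b / M) =
          (dn lam 1 : ℝ) * (b * ((b : ℝ) - a)) / M := by ring
      rw [h6, le_div_iff₀ hM0]
      calc P * (dn lam 1 : ℝ) * M = (dn lam 1 : ℝ) * (P * M) := by ring
        _ ≤ _ := mul_le_mul_of_nonneg_left h1 hwp
    calc T' * (b : ℝ) ^ 2 ≤ T' * (T * (dn lam 1 : ℝ)) :=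
          mul_le_mul_of_nonneg_left h3.le hT'.le
      _ = (T * T') * (dn lam 1 : ℝ) := by ring
      _ ≤ P * (dn lam 1 : ℝ) := mul_le_mul_of_nonneg_right hP2 hwp
      _ ≤ ((b : ℝ) - a) * ((dn lam 1 : ℝ) * b / M) := h5
      _ ≤ _ := mul_le_mul_of_nonneg_left h4 hba0

/-- choice of the constants -/
lemma consts {C1 C2 L : ℝ} {c1 c2 : ℕ} (hC1 : 1 ≤ C1) (hC2 : 0 < C2) (hL : 1 ≤ L) :
    1 ≤ C1 * L ^ c1 ∧ 0 < C2 * L ^ c2 ∧
      4 * (C1 * L ^ c1) ^ 2 ≤ (4 * C1 ^ 2 * (1 + C2)) * L ^ (2 * c1 + c2) ∧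
      (C1 * L ^ c1) * (C2 * L ^ c2) ≤ (4 * C1 ^ 2 * (1 + C2)) * L ^ (2 * c1 + c2) ∧
      4 * (C1 * L ^ c1) ≤ (4 * C1 ^ 2 * (1 + C2)) * L ^ (2 * c1 + c2) ∧
      1 ≤ 4 * C1 ^ 2 * (1 + C2) := by
  have h1 : 1 ≤ L ^ c1 := one_le_pow₀ hL
  have h2 : 1 ≤ L ^ c2 := one_le_pow₀ hL
  have e : (4 * C1 ^ 2 * (1 + C2)) * L ^ (2 * c1 + c2) =
      4 * (C1 * L ^ c1) ^ 2 * ((1 + C2) * L ^ c2) := by
    rw [pow_add, pow_mul']
    ring
  have hT : 1 ≤ C1 * L ^ c1 := one_le_mul_of_one_le_of_one_le hC1 h1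
  have h3 : 1 ≤ (1 + C2) * L ^ c2 := one_le_mul_of_one_le_of_one_le (by linarith) h2
  have h4 : C2 * L ^ c2 ≤ (1 + C2) * L ^ c2 :=
    mul_le_mul_of_nonneg_right (by linarith) (by linarith)
  have hT2 : C1 * L ^ c1 ≤ (C1 * L ^ c1) ^ 2 := by nlinarith
  have hC : 1 ≤ C1 ^ 2 := one_le_pow₀ hC1
  refine ⟨hT, by positivity, ?_, ?_, ?_, ?_⟩
  · rw [e]
    exact le_mul_of_one_le_right (by positivity) h3
  · rw [e]
    calc (C1 * L ^ c1) * (C2 * L ^ c2) ≤ (C1 * L ^ c1) ^ 2 * ((1 + C2) * L ^ c2) :=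
          mul_le_mul hT2 h4 (by positivity) (by positivity)
      _ ≤ 4 * (C1 * L ^ c1) ^ 2 * ((1 + C2) * L ^ c2) := by
          have : 0 ≤ (C1 * L ^ c1) ^ 2 * ((1 + C2) * L ^ c2) := by positivity
          nlinarith
  · rw [e]
    calc 4 * (C1 * L ^ c1) ≤ 4 * (C1 * L ^ c1) ^ 2 := by linarith
      _ ≤ _ := le_mul_of_one_le_right (by positivity) h3
  · nlinarith

theorem secY_of (hU : UniY) (hF : FatLog) : SecY := by
  obtain ⟨C1, c1, hC1, h1⟩ := hU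
  obtain ⟨C2, c2, hC2, h2⟩ := hF
  refine ⟨4 * C1 ^ 2 * (1 + C2), 2 * c1 + c2, (consts (L := 1) (c1 := 0) (c2 := 0) hC1 hC2
    le_rfl).2.2.2.2.2, fun a b hab n lam h3 h4 => ?_⟩
  by_cases hz : plethMult a b n lam = 0
  · rw [hz]
    exact Nat.zero_le _
  obtain ⟨hanti, _, _⟩ := H530.zero_stmt a b n lam hz
  have hL : (1 : ℝ) ≤ 1 + Real.log a := by linarith [Real.log_natCast_nonneg a]
  obtain ⟨k1, k2, k3, k4, k5, -⟩ := consts (c1 := c1) (c2 := c2) hC1 hC2 hL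
  by_cases hw : dn lam 1 ≤ b
  · exact h1 a b hab n lam (Or.inl hw)
  by_cases hD : a + dn lam 2 ≤ b + 1
  · exact h1 a b hab n lam (Or.inr (Or.inr (Or.inl hD)))
  by_cases hw2 : dn lam 1 ≤ 2 * a
  · refine h1 a b hab n lam (Or.inr (Or.inl ⟨hw2, Or.inr ?_⟩))
    by_contra hcon
    push Not at hcon
    have hba : (b : ℝ) - a ≤ 1 := by
      have : (b : ℝ) ≤ a + 1 := by exact_mod_cast (by omega : b ≤ a + 1)
      linarith
    have hb0 : (0 : ℝ) ≤ (b : ℝ) := Nat.cast_nonneg _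
    have hP : 4 ≤ 4 * C1 ^ 2 * (1 + C2) * (1 + Real.log a) ^ (2 * c1 + c2) := by linarith
    have h5 : 4 * (max (b : ℝ) (ex lam 1)) ≤ b := by
      calc 4 * (max (b : ℝ) (ex lam 1)) ≤ _ :=
            mul_le_mul_of_nonneg_right hP (le_max_of_le_left hb0)
        _ ≤ b * ((b : ℝ) - a) := h3
        _ ≤ b * 1 := mul_le_mul_of_nonneg_left hba hb0
        _ = b := mul_one _
    have h6 : (b : ℝ) ≤ max (b : ℝ) (ex lam 1) := le_max_left _ _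
    have h7 : (b : ℝ) ≤ 0 := by linarith
    have h8 : b = 0 := by
      have : b ≤ 0 := by exact_mod_cast h7
      omega
    have h9 : a = 0 := by omega
    omega
  rcases core k1 k2 k3 k4 k5 hab hanti h3 h4 hw hw2 hD with ⟨h5, h6⟩ | h5
  · exact h1 a b hab n lam (Or.inr (Or.inr (Or.inr ⟨h5, h6⟩)))
  · exact h2 a b n lam hab h5

theorem secX_of (hU : UniX) (hF : FatLog) : SecX := by
  obtain ⟨C1, c1, hC1, h1⟩ := hU
  obtain ⟨C2, c2, hC2, h2⟩ := hF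
  refine ⟨4 * C1 ^ 2 * (1 + C2), 2 * c1 + c2, (consts (L := 1) (c1 := 0) (c2 := 0) hC1 hC2
    le_rfl).2.2.2.2.2, fun a b hab n lam h3 h4 h0 => ?_⟩
  by_cases hz : plethMult a b n lam = 0
  · rw [hz]
    exact Nat.zero_le _
  obtain ⟨hanti, _, _⟩ := H530.zero_stmt a b n lam hz
  have hL : (1 : ℝ) ≤ 1 + Real.log a := by linarith [Real.log_natCast_nonneg a]
  obtain ⟨k1, k2, k3, k4, k5, -⟩ := consts (c1 := c1) (c2 := c2) hC1 hC2 hL
  by_cases hw : dn lam 1 ≤ b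
  · exact h1 a b hab n lam (Or.inl hw)
  by_cases hD : a + dn lam 2 ≤ b + 1
  · exact h1 a b hab n lam (Or.inr (Or.inr (Or.inl hD)))
  by_cases hw2 : dn lam 1 ≤ 2 * a
  · refine h1 a b hab n lam (Or.inr (Or.inl ⟨hw2, Or.inr ?_⟩))
    by_contra hcon
    push Not at hcon
    have hba : (b : ℝ) - a ≤ 1 := by
      have : (b : ℝ) ≤ a + 1 := by exact_mod_cast (by omega : b ≤ a + 1)
      linarith
    have hb0 : (0 : ℝ) ≤ (b : ℝ) := Nat.cast_nonneg _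
    have hP : 4 ≤ 4 * C1 ^ 2 * (1 + C2) * (1 + Real.log a) ^ (2 * c1 + c2) := by linarith
    have h5 : 4 * (max (b : ℝ) (ex lam 1)) ≤ b := by
      calc 4 * (max (b : ℝ) (ex lam 1)) ≤ _ :=
            mul_le_mul_of_nonneg_right hP (le_max_of_le_left hb0)
        _ ≤ b * ((b : ℝ) - a) := h3
        _ ≤ b * 1 := mul_le_mul_of_nonneg_left hba hb0
        _ = b := mul_one _
    have h6 : (b : ℝ) ≤ max (b : ℝ) (ex lam 1) := le_max_left _ _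
    have h7 : (b : ℝ) ≤ 0 := by linarith
    have h8 : b = 0 := by
      have : b ≤ 0 := by exact_mod_cast h7
      omega
    have h9 : a = 0 := by omega
    omega
  have hwp : (0 : ℝ) ≤ (dn lam 1 : ℝ) := Nat.cast_nonneg _
  have h0' : C1 * (1 + Real.log a) ^ c1 * (dn lam 1 : ℝ) ≤
      ((dn lam 1 : ℝ) - a - ex lam 2) ^ 2 := by
    rcases h0 with h0 | h0
    · exact absurd h0 hw2
    · refine le_trans (mul_le_mul_of_nonneg_right ?_ hwp) h0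
      linarith
  rcases core k1 k2 k3 k4 k5 hab hanti h3 h4 hw hw2 hD with ⟨h5, h6⟩ | h5
  · exact h1 a b hab n lam (Or.inr (Or.inr (Or.inr ⟨h5, h6, h0'⟩)))
  · exact h2 a b n lam hab h5

end Vale.Agent.P181.DX.H556
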