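import Vale.Agent.P181.DX.H556.Sec

set_option autoImplicit false

/-!
# P181: every partition with a short second row, from the theorem for `P w ≤ b ^ 2`
-/

namespace Vale.Agent.P181.DX.H556

open Vale.Agent.P181.T4 (ex)
open Vale.Agent.P181.H280 (plethMult)
open Vale.Agent.P181.PL

/-- `P w ≤ b ^ 2`, no other condition. -/
def UniAll : Prop := ∃ (C : ℝ) (c : ℕ), 1 ≤ C ∧ ∀ a b : ℕ, a ≤ b →
  ∀ (n : ℕ) (lam : Fin n → ℕ),
  C * (1 + Real.log a) ^ c * (dn lam 1 : ℝ) ≤ (b : ℝ) ^ 2 →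
  plethMult a b n lam ≤ plethMult b a n lam

/-- **`P max(b, λ_2) ≤ b (b - a)`, no other condition** (`λ_2 = ex lam 1`). -/
def SecA : Prop := ∃ (C : ℝ) (c : ℕ), 1 ≤ C ∧ ∀ a b : ℕ, a ≤ b →
  ∀ (n : ℕ) (lam : Fin n → ℕ),
  C * (1 + Real.log a) ^ c * max (b : ℝ) (ex lam 1) ≤ b * ((b : ℝ) - a) →
  plethMult a b n lam ≤ plethMult b a n lam

theorem secA_of (hU : UniAll) (hF : FatLog) : SecA := by
  obtain ⟨C1, c1, hC1, h1⟩ := hU
  obtain ⟨C2, c2, hC2, h2⟩ := hF
  refine ⟨4 * C1 ^ 2 * (1 + C2), 2 * c1 + c2, (consts (L := 1) (c1 := 0) (c2 := 0) hC1 hC2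
    le_rfl).2.2.2.2.2, fun a b hab n lam h3 => ?_⟩
  by_cases hz : plethMult a b n lam = 0
  · rw [hz]
    exact Nat.zero_le _
  obtain ⟨hanti, _, _⟩ := H530.zero_stmt a b n lam hz
  have hL : (1 : ℝ) ≤ 1 + Real.log a := by linarith [Real.log_natCast_nonneg a]
  obtain ⟨hT, hT', -, hP2, -, -⟩ := consts (c1 := c1) (c2 := c2) hC1 hC2 hL
  obtain ⟨T, hTe⟩ : ∃ T : ℝ, T = C1 * (1 + Real.log a) ^ c1 := ⟨_, rfl⟩
  obtain ⟨T', hTe'⟩ : ∃ T' : ℝ, T' = C2 * (1 + Real.log a) ^ c2 := ⟨_, rfl⟩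
  obtain ⟨P, hPe⟩ : ∃ P : ℝ,
    P = 4 * C1 ^ 2 * (1 + C2) * (1 + Real.log a) ^ (2 * c1 + c2) := ⟨_, rfl⟩
  rw [← hTe] at hT hP2
  rw [← hTe'] at hT' hP2
  rw [← hPe] at hP2 h3
  have hwp : (0 : ℝ) ≤ (dn lam 1 : ℝ) := Nat.cast_nonneg _
  have hb0 : (0 : ℝ) ≤ (b : ℝ) := Nat.cast_nonneg _
  rcases le_or_gt (T * (dn lam 1 : ℝ)) ((b : ℝ) ^ 2) with h4 | h4
  · apply h1 a b hab n lam
    rw [← hTe]
    exact h4
  · have hb1 : 0 < b := by
      rcases Nat.eq_zero_or_pos b with h | h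
      · exfalso
        have ha : a = 0 := by omega
        have h5 : plethMult a b n lam ≤ plethMult b a n lam := by
          rw [ha, h]
        have hP0 : 0 < P := by
          have : 0 < T * T' := by positivity
          linarith
        have h6 : (b : ℝ) = 0 := by exact_mod_cast h
        have h7 : P * (ex lam 1 : ℝ) ≤ 0 := by
          calc P * (ex lam 1 : ℝ) ≤ P * max (b : ℝ) (ex lam 1) :=
                mul_le_mul_of_nonneg_left (le_max_right _ _) hP0.le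
            _ ≤ b * ((b : ℝ) - a) := h3
            _ = 0 := by rw [h6, zero_mul]
        have h8 : (ex lam 1 : ℝ) ≤ 0 := by
          by_contra hcon
          rw [not_le] at hcon
          have := mul_pos hP0 hcon
          linarith
        have h9 : ex lam 1 = 0 := by
          have : ex lam 1 ≤ 0 := by exact_mod_cast h8
          omega
        have h10 : dn lam 1 = 0 := by
          unfold dn
          apply Finset.sum_eq_zero
          intro i _
          by_cases hi : 1 ≤ (i : ℕ)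
          · rw [if_pos hi]
            have h11 := exanti hanti hi
            rw [exfin lam i, h9] at h11
            omega
          · rw [if_neg hi]
        rw [h10, h6] at h4
        norm_num at h4
      · exact h
    have hbR : (0 : ℝ) < b := by exact_mod_cast hb1
    obtain ⟨M, hM⟩ : ∃ M : ℝ, M = max (b : ℝ) (ex lam 1) := ⟨_, rfl⟩
    have hM0 : 0 < M := by rw [hM]; exact lt_max_of_lt_left hbR
    have h5 := sum_min hanti hM0 hM
    rw [← hM] at h3
    have hba0 : 0 ≤ (b : ℝ) - a := by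
      have : (a : ℝ) ≤ b := by exact_mod_cast hab
      linarith
    have h6 : P * (dn lam 1 : ℝ) ≤ ((b : ℝ) - a) * ((dn lam 1 : ℝ) * b / M) := by
      have h7 : ((b : ℝ) - a) * ((dn lam 1 : ℝ) * b / M) =
          (dn lam 1 : ℝ) * (b * ((b : ℝ) - a)) / M := by ring
      rw [h7, le_div_iff₀ hM0]
      calc P * (dn lam 1 : ℝ) * M = (dn lam 1 : ℝ) * (P * M) := by ring
        _ ≤ _ := mul_le_mul_of_nonneg_left h3 hwp
    apply h2 a b n lam hab
    rw [← hTe']
    calc T' * (b : ℝ) ^ 2 ≤ T' * (T * (dn lam 1 : ℝ)) :=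
          mul_le_mul_of_nonneg_left h4.le hT'.le
      _ = (T * T') * (dn lam 1 : ℝ) := by ring
      _ ≤ P * (dn lam 1 : ℝ) := mul_le_mul_of_nonneg_right hP2 hwp
      _ ≤ ((b : ℝ) - a) * ((dn lam 1 : ℝ) * b / M) := h6
      _ ≤ _ := mul_le_mul_of_nonneg_left h5 hba0

end Vale.Agent.P181.DX.H556
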